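import Vale.Agent.P231C.Link
import Vale.Agent.P231C.Hopf
import Vale.Agent.P231C.SwC

/-! The abstract statements used by the geometric part: `rankLe_DS`, `integ_IS`, `IS_indep`,
`GC.cir`, `GC.conn`, `GC.even`, `GC.hopf_le`, `SH.trans`, `Cir.sgm_closed`, `Cir.conn_of`,
`exists_curv`, `Lk.link`, `sweep`. -/
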